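import Vale.Agent.P154.X57.SmTgtK

/-! # P154 q = 4: data of the subadditivity certificate XTT and the packed checks (generated) -/

namespace Vale.Agent.P154.XTT

open Finset Vale.Agent.Util.Polya Vale.Agent.P154 Vale.Agent.P154.X57

def Ld : TL :=
  [(-1728000, 1, 0, 0, 0), (170496000, 1, 1, 0, 0), (-3669504000, 1, 1, 1, 0), (22640640000, 1, 1, 1, 1),
   (-3669504000, 2, 1, 0, 0), (113203200000, 2, 1, 1, 0), (-796981248000, 2, 1, 1, 1),
   (22640640000, 2, 2, 0, 0), (-1062641664000, 2, 2, 1, 0), (8938635264000, 2, 2, 1, 1),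
   (2750349312000, 2, 2, 2, 0), (-35769876480000, 2, 2, 2, 1), (41051750400000, 2, 2, 2, 2),
   (22640640000, 3, 1, 0, 0), (-619874304000, 3, 1, 1, 0), (3667132416000, 3, 1, 1, 1),
   (-265660416000, 3, 2, 0, 0), (10084614144000, 3, 2, 1, 0), (-67565322240000, 3, 2, 1, 1),
   (-31795445760000, 3, 2, 2, 0), (314730086400000, 3, 2, 2, 1), (-348468019200000, 3, 2, 2, 2),
   (687587328000, 3, 3, 0, 0), (-19872153600000, 3, 3, 1, 0), (100348723200000, 3, 3, 1, 1),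
   (95787417600000, 3, 3, 2, 0), (-673704837120000, 3, 3, 2, 1), (716974325760000, 3, 3, 2, 2),
   (-69693603840000, 3, 3, 3, 0), (310042951680000, 3, 3, 3, 1), (-317089382400000, 3, 3, 3, 2),
   (-88553472000, 4, 1, 0, 0), (2062761984000, 4, 1, 1, 0), (-9936076800000, 4, 1, 1, 1),
   (916783104000, 4, 2, 0, 0), (-27821015040000, 4, 2, 1, 0), (143681126400000, 4, 2, 1, 1),
   (68419584000000, 4, 2, 2, 0), (-487855226880000, 4, 2, 2, 1), (348798320640000, 4, 2, 2, 2),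
   (-3974430720000, 4, 3, 0, 0), (86664806400000, 4, 3, 1, 0), (-313621217280000, 4, 3, 1, 1),
   (-302005616640000, 4, 3, 2, 0), (1356437913600000, 4, 3, 2, 1), (-697596641280000, 4, 3, 2, 2),
   (213154529280000, 4, 3, 3, 0), (-454494781440000, 4, 3, 3, 1), (4561305600000, 4, 4, 0, 0),
   (-69693603840000, 4, 4, 1, 0), (159865896960000, 4, 4, 1, 1), (155021475840000, 4, 4, 2, 0),
   (-332943851520000, 4, 4, 2, 1), (-105696460800000, 4, 4, 3, 0), (229195776000, 5, 1, 0, 0),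
   (-4371873792000, 5, 1, 1, 0), (16420700160000, 5, 1, 1, 1), (-1987215360000, 5, 2, 0, 0),
   (46525317120000, 5, 2, 1, 0), (-174234009600000, 5, 2, 1, 1), (-83632324608000, 5, 2, 2, 0),
   (383678152704000, 5, 2, 2, 1), (-133177540608000, 5, 2, 2, 2), (6841958400000, 5, 3, 0, 0),
   (-106863525888000, 5, 3, 1, 0), (248034361344000, 5, 3, 1, 1), (240283287552000, 5, 3, 2, 0),
   (-520026587136000, 5, 3, 2, 1), (-82443239424000, 5, 3, 3, 0), (-11615600640000, 5, 4, 0, 0),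
   (112390569984000, 5, 4, 1, 0), (-123664859136000, 5, 4, 1, 1), (-120493965312000, 5, 4, 2, 0),
   (4844421120000, 5, 5, 0, 0), (-22196256768000, 5, 5, 1, 0), (-397443072000, 6, 1, 0, 0),
   (5929697280000, 6, 1, 1, 0), (-16261840896000, 6, 1, 1, 1), (2736783360000, 6, 2, 0, 0),
   (-46462402560000, 6, 2, 1, 0), (112390569984000, 6, 2, 1, 1), (54257516544000, 6, 2, 2, 0),
   (-120493965312000, 6, 2, 2, 1), (-6969360384000, 6, 3, 0, 0), (69759664128000, 6, 3, 1, 0),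
   (-78215380992000, 6, 3, 1, 1), (-76101451776000, 6, 3, 2, 0), (7751073792000, 6, 4, 0, 0),
   (-35936796672000, 6, 4, 1, 0), (-3170893824000, 6, 5, 0, 0), (456130560000, 7, 1, 0, 0),
   (-4978114560000, 7, 1, 1, 0), (8858370048000, 7, 1, 1, 1), (-2323120128000, 7, 2, 0, 0),
   (25467813888000, 7, 2, 1, 0), (-29896998912000, 7, 2, 1, 1), (-14495514624000, 7, 2, 2, 0),
   (3875536896000, 7, 3, 0, 0), (-18723373056000, 7, 3, 1, 0), (-2113929216000, 7, 4, 0, 0),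
   (-331874304000, 8, 1, 0, 0), (2353004544000, 8, 1, 1, 0), (-2038431744000, 8, 1, 1, 1),
   (1107296256000, 8, 2, 0, 0), (-5888802816000, 8, 2, 1, 0), (-905969664000, 8, 3, 0, 0),
   (138412032000, 9, 1, 0, 0), (-478150656000, 9, 1, 1, 0), (-226492416000, 9, 2, 0, 0),
   (-25165824000, 10, 1, 0, 0)]

def Xs0 : TL :=
  [(36000, 0, 0, 0, 0), (-288000, 1, 0, 0, 0), (576000, 2, 0, 0, 0)]

def Xt0 : TL :=
  [(1, 0, 0, 0, 0)]

def Ts0 : TG := [(905969664000, 1, 0, 0)]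

def Tt0 : TG := [(100663296, 0, 0, 0)]

def Xs1 : TL :=
  [(36000, 0, 0, 0, 0)]

def Xt1 : TL :=
  [(1, 0, 0, 0, 0), (-8, 1, 0, 0, 0), (16, 2, 0, 0, 0)]

def Ts1 : TG := [(3623878656000, 0, 0, 0)]

def Tt1 : TG := [(25165824, 1, 0, 0)]

def Xs2 : TL :=
  [(113, 0, 0, 0, 0), (-1596, 1, 0, 0, 0), (2712, 1, 1, 0, 0), (5704, 2, 0, 0, 0), (-11856, 2, 1, 0, 0),
   (12864, 2, 2, 0, 0), (-8240, 3, 0, 0, 0), (2688, 3, 1, 0, 0), (-5376, 3, 2, 0, 0), (5184, 4, 0, 0, 0),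
   (-1792, 5, 0, 0, 0)]

def Xt2 : TL :=
  [(423, 0, 0, 0, 0), (-3188, 1, 0, 0, 0), (3816, 1, 1, 0, 0), (-488, 2, 0, 0, 0), (-8784, 2, 1, 0, 0),
   (2304, 2, 2, 0, 0), (29776, 3, 0, 0, 0), (-17280, 3, 1, 0, 0), (34560, 3, 2, 0, 0), (-38016, 4, 0, 0, 0),
   (11520, 5, 0, 0, 0)]

def Ts2 : TG := [(-1509949440, 0, 1, 0), (-44040192, 1, 1, 0), (289406976, 2, 0, 0)]

def Tt2 : TG := [(-3246391296, 0, 0, 1), (-1258291200, 0, 1, 0), (10066329600, 1, 0, 0), (283115520, 1, 1, 0), (924844032, 2, 0, 0)]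

def Xs3 : TL :=
  [(-423, 0, 0, 0, 0), (3188, 1, 0, 0, 0), (-3816, 1, 1, 0, 0), (488, 2, 0, 0, 0), (8784, 2, 1, 0, 0),
   (-2304, 2, 2, 0, 0), (-29776, 3, 0, 0, 0), (17280, 3, 1, 0, 0), (-34560, 3, 2, 0, 0), (38016, 4, 0, 0, 0),
   (-11520, 5, 0, 0, 0)]

def Xt3 : TL :=
  [(-113, 0, 0, 0, 0), (1596, 1, 0, 0, 0), (-2712, 1, 1, 0, 0), (-5704, 2, 0, 0, 0), (11856, 2, 1, 0, 0),
   (-12864, 2, 2, 0, 0), (8240, 3, 0, 0, 0), (-2688, 3, 1, 0, 0), (5376, 3, 2, 0, 0), (-5184, 4, 0, 0, 0),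
   (1792, 5, 0, 0, 0)]

def Ts3 : TG := [(3246391296, 0, 0, 1), (1258291200, 0, 1, 0), (-10066329600, 1, 0, 0), (-283115520, 1, 1, 0), (-924844032, 2, 0, 0)]

def Tt3 : TG := [(1509949440, 0, 1, 0), (44040192, 1, 1, 0), (-289406976, 2, 0, 0)]

def Xs4 : TL :=
  [(-200, 0, 0, 0, 0), (3200, 1, 0, 0, 0), (-9600, 1, 1, 0, 0), (-9600, 2, 0, 0, 0), (38400, 2, 1, 0, 0),
   (-38400, 2, 2, 0, 0), (12800, 3, 0, 0, 0), (-12800, 4, 0, 0, 0)]

def Xt4 : TL :=
  [(1, 0, 0, 0, 0), (-8, 1, 0, 0, 0), (16, 2, 0, 0, 0)]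

def Ts4 : TG := [(-1258291200, 2, 0, 0)]

def Tt4 : TG := [(25165824, 1, 0, 0)]

def Xs5 : TL :=
  [(-200, 0, 0, 0, 0), (1600, 1, 0, 0, 0), (-3200, 2, 0, 0, 0)]

def Xt5 : TL :=
  [(1, 0, 0, 0, 0), (-16, 1, 0, 0, 0), (48, 1, 1, 0, 0), (48, 2, 0, 0, 0), (-192, 2, 1, 0, 0), (192, 2, 2, 0, 0),
   (-64, 3, 0, 0, 0), (64, 4, 0, 0, 0)]

def Ts5 : TG := [(-5033164800, 1, 0, 0)]

def Tt5 : TG := [(6291456, 2, 0, 0)]

def Xs : List TL := [Xs0, Xs1, Xs2, Xs3, Xs4, Xs5]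

def Xt : List TL := [Xt0, Xt1, Xt2, Xt3, Xt4, Xt5]

set_option maxRecDepth 100000 in
theorem hgood : good 11 11 112 (certE 11 0 1 0 1 Ld Xs Xt) = true := by
  decide +kernel

set_option maxRecDepth 100000 in
theorem hbnd : 2 * bnd (certE 11 0 1 0 1 Ld Xs Xt) < 2 ^ 112 := by
  decide +kernel

set_option maxRecDepth 100000 in
theorem hchk0 : check 112 12 11 (certE 11 0 1 0 1 Ld Xs Xt) (0) 12 = true := by
  decide +kernel

set_option maxRecDepth 100000 in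
theorem hchk1 : check 112 12 11 (certE 11 0 1 0 1 Ld Xs Xt) (0 + 12) 24 = true := by
  decide +kernel

set_option maxRecDepth 100000 in
theorem hchk2 : check 112 12 11 (certE 11 0 1 0 1 Ld Xs Xt) (0 + 12 + 24) 108 = true := by
  decide +kernel

theorem hchk : check 112 12 11 (certE 11 0 1 0 1 Ld Xs Xt) 0 (12 * 12) = true := by
  have h := (check_append (check_append hchk0 hchk1) hchk2)
  have e : 12 + 24 + 108 = 12 * 12 := by norm_num
  rw [e] at h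
  exact h

set_option maxRecDepth 100000 in
theorem chkS0 : chkTK 48 12 11 Xs0 1 1 4 Ts0 = true := by
  decide +kernel

set_option maxRecDepth 100000 in
theorem chkT0 : chkTK 32 12 11 Xt0 1 1 4 Tt0 = true := by
  decide +kernel

set_option maxRecDepth 100000 in
theorem chkS1 : chkTK 48 12 11 Xs1 1 1 4 Ts1 = true := by
  decide +kernel

set_option maxRecDepth 100000 in
theorem chkT1 : chkTK 32 12 11 Xt1 1 1 4 Tt1 = true := by
  decide +kernel

set_option maxRecDepth 100000 in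
theorem chkS2 : chkTK 48 12 11 Xs2 1 1 4 Ts2 = true := by
  decide +kernel

set_option maxRecDepth 100000 in
theorem chkT2 : chkTK 48 12 11 Xt2 1 1 4 Tt2 = true := by
  decide +kernel

set_option maxRecDepth 100000 in
theorem chkS3 : chkTK 48 12 11 Xs3 1 1 4 Ts3 = true := by
  decide +kernel

set_option maxRecDepth 100000 in
theorem chkT3 : chkTK 48 12 11 Xt3 1 1 4 Tt3 = true := by
  decide +kernel

set_option maxRecDepth 100000 in
theorem chkS4 : chkTK 48 12 11 Xs4 1 1 4 Ts4 = true := by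
  decide +kernel

set_option maxRecDepth 100000 in
theorem chkT4 : chkTK 32 12 11 Xt4 1 1 4 Tt4 = true := by
  decide +kernel

set_option maxRecDepth 100000 in
theorem chkS5 : chkTK 40 12 11 Xs5 1 1 4 Ts5 = true := by
  decide +kernel

set_option maxRecDepth 100000 in
theorem chkT5 : chkTK 40 12 11 Xt5 1 1 4 Tt5 = true := by
  decide +kernel

end Vale.Agent.P154.XTT
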